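import Mathlib

/-!
Random finite sets with independent points: nearby profiles give nearby laws in `L¹`, the laws
are invariant under adding points where the profile is one, and the lattices `ℤ`, `ℤ × ℤ` carry
finitely supported profiles equal to one on a large box with small energy.
-/

open Finset
open scoped symmDiff

namespace Vale.Agent.P196

variable {ι κ : Type*} [DecidableEq ι] [DecidableEq κ]

/-- Probability that a point with profile value `t` is present. -/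
noncomputable def bitProb (t : ℝ) : ℝ := t ^ 2 / 2

/-- Law of the random subset of `S` containing each `i` independently with probability
`bitProb (φ i)`; it vanishes outside the subsets of `S`. -/
noncomputable def fieldWeight (S : Finset ι) (φ : ι → ℝ) (A : Finset ι) : ℝ :=
  if A ⊆ S then (∏ i ∈ A, bitProb (φ i)) * ∏ i ∈ S \ A, (1 - bitProb (φ i)) else 0

lemma bitProb_mem {t : ℝ} (h0 : 0 ≤ t) (h1 : t ≤ 1) : 0 ≤ bitProb t ∧ bitProb t ≤ 1 / 2 := by
  unfold bitProb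
  constructor <;> nlinarith

lemma fieldWeight_nonneg {S : Finset ι} {φ : ι → ℝ} (h0 : ∀ i, 0 ≤ φ i) (h1 : ∀ i, φ i ≤ 1)
    (A : Finset ι) : 0 ≤ fieldWeight S φ A := by
  unfold fieldWeight
  split_ifs
  · refine mul_nonneg (prod_nonneg fun i _ => (bitProb_mem (h0 i) (h1 i)).1)
      (prod_nonneg fun i _ => ?_)
    have := (bitProb_mem (h0 i) (h1 i)).2
    linarith
  · exact le_rfl

lemma sum_fieldWeight (S : Finset ι) (φ : ι → ℝ) : ∑ A ∈ S.powerset, fieldWeight S φ A = 1 := by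
  rw [sum_congr rfl fun A hA => (show fieldWeight S φ A = _ from if_pos (mem_powerset.1 hA)),
    ← prod_add]
  simp

lemma fieldWeight_mono {S T : Finset ι} (hST : S ⊆ T) {φ : ι → ℝ} (hφ : ∀ i ∈ T, i ∉ S → φ i = 0)
    (A : Finset ι) : fieldWeight T φ A = fieldWeight S φ A := by
  by_cases hA : A ⊆ S
  · rw [fieldWeight, fieldWeight, if_pos (hA.trans hST), if_pos hA]
    congr 1
    refine (prod_subset (sdiff_subset_sdiff hST le_rfl) fun i hi hi' => ?_).symm
    simp only [mem_sdiff] at hi hi'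
    simp [bitProb, hφ i hi.1 fun h => hi' ⟨h, hi.2⟩]
  · rw [fieldWeight, fieldWeight, if_neg hA]
    split_ifs with hT
    · obtain ⟨i, hi, hiS⟩ := not_subset.1 hA
      rw [prod_eq_zero hi (by simp [bitProb, hφ i (hT hi) hiS]), zero_mul]
    · rfl

lemma fieldWeight_map (e : ι ↪ κ) (S : Finset ι) (φ : κ → ℝ) (A : Finset ι) :
    fieldWeight (S.map e) φ (A.map e) = fieldWeight S (φ ∘ e) A := by
  by_cases h : A ⊆ S
  · rw [fieldWeight, fieldWeight, if_pos (map_subset_map.2 h), if_pos h, ← Finset.map_sdiff, prod_map,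
      prod_map]
    rfl
  · rw [fieldWeight, fieldWeight, if_neg h, if_neg (mt map_subset_map.1 h)]

/-- Adding or deleting points where the profile equals one does not change the law. -/
lemma fieldWeight_symmDiff {S B : Finset ι} {φ : ι → ℝ} (hB : B ⊆ S) (hφ : ∀ i ∈ B, φ i = 1)
    (A : Finset ι) : fieldWeight S φ (A ∆ B) = fieldWeight S φ A := by
  have hiff : A ∆ B ⊆ S ↔ A ⊆ S := by
    simp only [subset_iff, mem_symmDiff]
    constructor
    · intro h x hx
      by_cases hxB : x ∈ B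
      · exact hB hxB
      · exact h (.inl ⟨hx, hxB⟩)
    · rintro h x (⟨hx, -⟩ | ⟨hx, -⟩)
      exacts [h hx, hB hx]
  by_cases hA : A ⊆ S
  · rw [fieldWeight, fieldWeight, if_pos (hiff.2 hA), if_pos hA]
    have key : ∀ C, C ⊆ S → (∏ i ∈ C, bitProb (φ i)) * ∏ i ∈ S \ C, (1 - bitProb (φ i))
        = ∏ i ∈ S, if i ∈ C then bitProb (φ i) else 1 - bitProb (φ i) := by
      intro C hC
      rw [prod_ite, filter_mem_eq_inter, inter_eq_right.2 hC, filter_notMem_eq_sdiff]
    rw [key _ (hiff.2 hA), key _ hA]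
    refine prod_congr rfl fun i _ => ?_
    by_cases hiB : i ∈ B
    · have h2 : bitProb (φ i) = 1 - bitProb (φ i) := by rw [hφ i hiB, bitProb]; norm_num
      by_cases hiA : i ∈ A <;> simp [mem_symmDiff, hiA, hiB, ← h2]
    · simp [mem_symmDiff, hiB]
  · rw [fieldWeight, fieldWeight, if_neg hA, if_neg (mt hiff.1 hA)]

lemma affinity_ge {s t : ℝ} (hs0 : 0 ≤ s) (hs1 : s ≤ 1) (ht0 : 0 ≤ t) (ht1 : t ≤ 1) :
    1 - (s - t) ^ 2 / 2 ≤ Real.sqrt (bitProb s * bitProb t)
      + Real.sqrt ((1 - bitProb s) * (1 - bitProb t)) := by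
  have e1 : Real.sqrt (bitProb s * bitProb t) = s * t / 2 := by
    rw [show bitProb s * bitProb t = (s * t / 2) ^ 2 by unfold bitProb; ring]
    exact Real.sqrt_sq (by positivity)
  have ha := (bitProb_mem hs0 hs1).2
  have hb := (bitProb_mem ht0 ht1).2
  have e2 : 1 - s ^ 2 / 4 - t ^ 2 / 4 - (s - t) ^ 2 / 4
      ≤ Real.sqrt ((1 - bitProb s) * (1 - bitProb t)) := by
    refine Real.le_sqrt_of_sq_le ?_
    unfold bitProb
    nlinarith [mul_nonneg (sq_nonneg (s - t)) (show 0 ≤ 2 - s ^ 2 - t ^ 2 by nlinarith)]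
  rw [e1]
  nlinarith

lemma one_sub_sum_le_prod (S : Finset ι) (a : ι → ℝ) (h0 : ∀ i ∈ S, 0 ≤ a i)
    (h1 : ∀ i ∈ S, a i ≤ 1) : 1 - ∑ i ∈ S, (1 - a i) ≤ ∏ i ∈ S, a i := by
  induction S using Finset.induction_on with
  | empty => simp
  | insert i S hi ih =>
    rw [prod_insert hi, sum_insert hi]
    have h0' : ∀ j ∈ S, 0 ≤ a j := fun j hj => h0 j (mem_insert_of_mem hj)
    have h1' : ∀ j ∈ S, a j ≤ 1 := fun j hj => h1 j (mem_insert_of_mem hj)
    have hp1 : ∏ j ∈ S, a j ≤ 1 := prod_le_one h0' h1'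
    nlinarith [ih h0' h1', h0 i (mem_insert_self i S), h1 i (mem_insert_self i S)]

/-- Nearby profiles give nearby laws. -/
theorem sum_abs_fieldWeight_sub_le (S : Finset ι) {φ ψ : ι → ℝ} (hφ0 : ∀ i, 0 ≤ φ i)
    (hφ1 : ∀ i, φ i ≤ 1) (hψ0 : ∀ i, 0 ≤ ψ i) (hψ1 : ∀ i, ψ i ≤ 1) :
    ∑ A ∈ S.powerset, |fieldWeight S φ A - fieldWeight S ψ A|
      ≤ 2 * Real.sqrt (∑ i ∈ S, (φ i - ψ i) ^ 2) := by
  set p := fun i => bitProb (φ i)
  set q := fun i => bitProb (ψ i)
  have hp := fun i => bitProb_mem (hφ0 i) (hφ1 i)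
  have hq := fun i => bitProb_mem (hψ0 i) (hψ1 i)
  set a := fun i => Real.sqrt (p i * q i) + Real.sqrt ((1 - p i) * (1 - q i))
  have hBC : ∑ A ∈ S.powerset, Real.sqrt (fieldWeight S φ A) * Real.sqrt (fieldWeight S ψ A)
      = ∏ i ∈ S, a i := by
    rw [prod_add]
    refine sum_congr rfl fun A hA => ?_
    rw [mem_powerset] at hA
    rw [← Real.sqrt_mul (fieldWeight_nonneg hφ0 hφ1 A), fieldWeight, fieldWeight, if_pos hA,
      if_pos hA, mul_mul_mul_comm, ← prod_mul_distrib, ← prod_mul_distrib,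
      Real.sqrt_mul (prod_nonneg fun i _ => mul_nonneg (hp i).1 (hq i).1),
      Real.sqrt_prod _ (fun i _ => mul_nonneg (hp i).1 (hq i).1),
      Real.sqrt_prod _ (fun i _ => mul_nonneg (by linarith [(hp i).2]) (by linarith [(hq i).2]))]
  have ha1 : ∀ i ∈ S, a i ≤ 1 := by
    intro i _
    have u1 : Real.sqrt (p i * q i) ≤ (p i + q i) / 2 :=
      Real.sqrt_le_iff.2 ⟨by linarith [(hp i).1, (hq i).1], by nlinarith [sq_nonneg (p i - q i)]⟩
    have u2 : Real.sqrt ((1 - p i) * (1 - q i)) ≤ ((1 - p i) + (1 - q i)) / 2 :=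
      Real.sqrt_le_iff.2 ⟨by linarith [(hp i).2, (hq i).2], by nlinarith [sq_nonneg (p i - q i)]⟩
    show Real.sqrt (p i * q i) + Real.sqrt ((1 - p i) * (1 - q i)) ≤ 1
    linarith
  have hprod := one_sub_sum_le_prod S a
    (fun i _ => add_nonneg (Real.sqrt_nonneg _) (Real.sqrt_nonneg _)) ha1
  have hsum : ∑ i ∈ S, (1 - a i) ≤ (∑ i ∈ S, (φ i - ψ i) ^ 2) / 2 := by
    rw [sum_div]
    exact sum_le_sum fun i _ => by linarith [affinity_ge (hφ0 i) (hφ1 i) (hψ0 i) (hψ1 i)]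
  set f := fun A => Real.sqrt (fieldWeight S φ A) - Real.sqrt (fieldWeight S ψ A)
  set g := fun A => Real.sqrt (fieldWeight S φ A) + Real.sqrt (fieldWeight S ψ A)
  have hfg : ∀ A, |fieldWeight S φ A - fieldWeight S ψ A| = |f A| * g A := by
    intro A
    rw [← abs_of_nonneg (show 0 ≤ g A from add_nonneg (Real.sqrt_nonneg _) (Real.sqrt_nonneg _)),
      ← abs_mul]
    congr 1
    have u := Real.mul_self_sqrt (fieldWeight_nonneg hφ0 hφ1 (S := S) A)
    have v := Real.mul_self_sqrt (fieldWeight_nonneg hψ0 hψ1 (S := S) A)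
    simp only [f, g]
    linear_combination -u + v
  have hsq : ∀ A, Real.sqrt (fieldWeight S φ A) ^ 2 = fieldWeight S φ A ∧
      Real.sqrt (fieldWeight S ψ A) ^ 2 = fieldWeight S ψ A := fun A =>
    ⟨Real.sq_sqrt (fieldWeight_nonneg hφ0 hφ1 A), Real.sq_sqrt (fieldWeight_nonneg hψ0 hψ1 A)⟩
  have hf : ∑ A ∈ S.powerset, |f A| ^ 2 ≤ ∑ i ∈ S, (φ i - ψ i) ^ 2 := by
    have e : ∀ A, |f A| ^ 2 = fieldWeight S φ A + fieldWeight S ψ A
        - 2 * (Real.sqrt (fieldWeight S φ A) * Real.sqrt (fieldWeight S ψ A)) := by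
      intro A
      rw [sq_abs]
      linear_combination (hsq A).1 + (hsq A).2
    simp only [e, sum_sub_distrib, sum_add_distrib, sum_fieldWeight, ← mul_sum, hBC]
    linarith
  have hg : ∑ A ∈ S.powerset, g A ^ 2 ≤ 4 := by
    calc ∑ A ∈ S.powerset, g A ^ 2
        ≤ ∑ A ∈ S.powerset, (2 * fieldWeight S φ A + 2 * fieldWeight S ψ A) :=
          sum_le_sum fun A _ => by
            nlinarith [(hsq A).1, (hsq A).2, sq_nonneg (f A)]
      _ = 4 := by rw [sum_add_distrib, ← mul_sum, ← mul_sum, sum_fieldWeight, sum_fieldWeight]; norm_num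
  simp only [hfg]
  refine (Real.sum_mul_le_sqrt_mul_sqrt _ _ _).trans ?_
  rw [mul_comm (2 : ℝ)]
  refine mul_le_mul (Real.sqrt_le_sqrt hf) ?_ (Real.sqrt_nonneg _) (Real.sqrt_nonneg _)
  rw [Real.sqrt_le_iff]
  exact ⟨zero_le_two, by linarith⟩

end Vale.Agent.P196
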