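import Mathlib

/-!
# P196: amenability toolkit

Følner's condition, Reiter's condition with finitely supported functions, and the permanence
properties used for full groups: a group acting with almost invariant finitely supported
probability functions and amenable stabilisers is amenable.
-/

noncomputable section

open scoped symmDiff

namespace Vale.Agent.P196

/-! ### The norm of finitely supported functions -/

/-- The sum of the absolute values. -/
def norm1 {α : Type*} (f : α →₀ ℝ) : ℝ := f.sum fun _ x => |x|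

namespace Norm1

variable {α β : Type*}

theorem eq_sum (f : α →₀ ℝ) {V : Finset α} (h : f.support ⊆ V) : norm1 f = ∑ x ∈ V, |f x| :=
  Finsupp.sum_of_support_subset f h _ fun _ _ => abs_zero

theorem nonneg (f : α →₀ ℝ) : 0 ≤ norm1 f := Finset.sum_nonneg fun _ _ => abs_nonneg _

theorem zero : norm1 (0 : α →₀ ℝ) = 0 := Finsupp.sum_zero_index

theorem single (a : α) (c : ℝ) : norm1 (Finsupp.single a c) = |c| :=
  Finsupp.sum_single_index abs_zero

theorem add_le (f g : α →₀ ℝ) : norm1 (f + g) ≤ norm1 f + norm1 g := by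
  classical
  rw [eq_sum (f + g) (V := f.support ∪ g.support) Finsupp.support_add,
    eq_sum f (V := f.support ∪ g.support) Finset.subset_union_left,
    eq_sum g (V := f.support ∪ g.support) Finset.subset_union_right, ← Finset.sum_add_distrib]
  exact Finset.sum_le_sum fun x _ => abs_add_le _ _

theorem smul (c : ℝ) (f : α →₀ ℝ) : norm1 (c • f) = |c| * norm1 f := by
  rw [eq_sum (c • f) Finsupp.support_smul, eq_sum f subset_rfl, Finset.mul_sum]
  simp [abs_mul]

theorem sum_le {ι : Type*} (s : Finset ι) (f : ι → α →₀ ℝ) :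
    norm1 (∑ i ∈ s, f i) ≤ ∑ i ∈ s, norm1 (f i) := by
  classical
  induction s using Finset.induction_on with
  | empty => simp [zero]
  | insert a s ha ih =>
    rw [Finset.sum_insert ha, Finset.sum_insert ha]
    exact (add_le _ _).trans (by gcongr)

theorem mapDomain_le (φ : α → β) (f : α →₀ ℝ) : norm1 (f.mapDomain φ) ≤ norm1 f := by
  rw [Finsupp.mapDomain]
  refine (sum_le _ _).trans (Finset.sum_le_sum fun x _ => ?_)
  rw [single]

theorem eq_mass (f : α →₀ ℝ) (hf : 0 ≤ f) : norm1 f = f.sum fun _ x => x :=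
  Finset.sum_congr rfl fun x _ => abs_of_nonneg (hf x)

theorem mapDomain_nonneg (φ : α → β) {f : α →₀ ℝ} (hf : 0 ≤ f) : 0 ≤ f.mapDomain φ := by
  classical
  intro y
  rw [Finsupp.mapDomain, Finsupp.sum_apply]
  refine Finset.sum_nonneg fun x _ => ?_
  dsimp only
  rw [Finsupp.single_apply]
  split_ifs
  exacts [hf x, le_rfl]

theorem mapDomain_of_nonneg (φ : α → β) {f : α →₀ ℝ} (hf : 0 ≤ f) :
    norm1 (f.mapDomain φ) = norm1 f := by
  rw [eq_mass _ (mapDomain_nonneg φ hf), eq_mass _ hf,
    Finsupp.sum_mapDomain_index (fun _ => rfl) (fun _ _ _ => rfl)]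

theorem mapDomain_of_injective {φ : α → β} (hφ : Function.Injective φ) (f : α →₀ ℝ) :
    norm1 (f.mapDomain φ) = norm1 f :=
  Finsupp.sum_mapDomain_index_inj hφ

end Norm1

/-! ### Følner and Reiter -/

/-- Amenability, by Følner sets. -/
def IsAmenable (G : Type*) [Group G] : Prop :=
  ∀ (K : Finset G) (ε : ℝ), 0 < ε → ∃ D : Finset G, D.Nonempty ∧
    ∀ g ∈ K, letI := Classical.decEq G;
      (((D.image fun x => g * x) ∆ D).card : ℝ) < ε * D.card

/-- Almost invariant finitely supported probability functions. -/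
def Reiter (G : Type*) [Group G] : Prop :=
  ∀ (K : Finset G) (ε : ℝ), 0 < ε → ∃ μ : G →₀ ℝ, 0 ≤ μ ∧ norm1 μ = 1 ∧
    ∀ g ∈ K, norm1 (μ.mapDomain (fun x => g * x) - μ) < ε

variable {G : Type*} [Group G]

theorem mapDomain_mul_left_apply (g : G) (f : G →₀ ℝ) (x : G) :
    f.mapDomain (fun y => g * y) x = f (g⁻¹ * x) := by
  conv_lhs => rw [show x = g * (g⁻¹ * x) by simp]
  exact Finsupp.mapDomain_apply (mul_right_injective g) f _

/-- The indicator of a finite set. -/
def ind {α : Type*} (D : Finset α) : α →₀ ℝ := ∑ x ∈ D, Finsupp.single x 1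

theorem ind_apply {α : Type*} [DecidableEq α] (D : Finset α) (x : α) :
    ind D x = if x ∈ D then 1 else 0 := by
  simp [ind, Finsupp.finsetSum_apply, Finsupp.single_apply]

theorem norm1_translate_ind [DecidableEq G] (g : G) (D : Finset G) :
    norm1 ((ind D).mapDomain (fun x => g * x) - ind D) =
      (((D.image fun x => g * x) ∆ D).card : ℝ) := by
  have hval : ∀ x, ((ind D).mapDomain (fun x => g * x) - ind D) x =
      (if x ∈ D.image (fun x => g * x) then (1 : ℝ) else 0) - if x ∈ D then 1 else 0 := by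
    intro x
    rw [Finsupp.sub_apply, mapDomain_mul_left_apply, ind_apply, ind_apply]
    congr 1
    by_cases h : g⁻¹ * x ∈ D
    · rw [if_pos h, if_pos (Finset.mem_image.mpr ⟨_, h, by simp⟩)]
    · rw [if_neg h, if_neg]
      simp only [Finset.mem_image]
      rintro ⟨y, hy, rfl⟩
      exact h (by simpa using hy)
  rw [Norm1.eq_sum _ (V := (D.image fun x => g * x) ∆ D) ?_]
  · rw [Finset.sum_congr rfl (g := fun _ => (1 : ℝ)) fun x hx => ?_]
    · simp
    · rw [hval]
      rcases Finset.mem_symmDiff.mp hx with ⟨h1, h2⟩ | ⟨h1, h2⟩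
      · rw [if_pos h1, if_neg h2]; norm_num
      · rw [if_neg h2, if_pos h1]; norm_num
  · intro x hx
    rw [Finsupp.mem_support_iff, hval] at hx
    rw [Finset.mem_symmDiff]
    by_cases h1 : x ∈ D.image (fun x => g * x) <;> by_cases h2 : x ∈ D <;>
      simp_all

theorem norm1_ind {α : Type*} (D : Finset α) : norm1 (ind D) = D.card := by
  classical
  rw [Norm1.eq_sum _ (V := D) fun x hx => ?_]
  · rw [Finset.sum_congr rfl (g := fun _ => (1 : ℝ)) fun x hx => by simp [ind_apply, hx]]
    simp
  · rw [Finsupp.mem_support_iff, ind_apply] at hx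
    by_contra h
    exact hx (if_neg h)

theorem ind_nonneg {α : Type*} (D : Finset α) : 0 ≤ ind D := by
  classical
  intro x
  rw [ind_apply, Finsupp.coe_zero, Pi.zero_apply]
  split_ifs <;> norm_num

/-- Følner sets give almost invariant functions. -/
theorem IsAmenable.reiter (h : IsAmenable G) : Reiter G := by
  classical
  intro K ε hε
  obtain ⟨D, hD, hK⟩ := h K ε hε
  have hc : (0 : ℝ) < D.card := by exact_mod_cast hD.card_pos
  refine ⟨(D.card : ℝ)⁻¹ • ind D, fun x => ?_, ?_, fun g hg => ?_⟩
  · exact mul_nonneg (inv_nonneg.mpr hc.le) (ind_nonneg D x)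
  · rw [Norm1.smul, norm1_ind, abs_of_pos (inv_pos.mpr hc), inv_mul_cancel₀ hc.ne']
  · rw [Finsupp.mapDomain_smul, ← smul_sub, Norm1.smul, norm1_translate_ind,
      abs_of_pos (inv_pos.mpr hc), ← div_eq_inv_mul, div_lt_iff₀ hc]
    convert hK g hg using 4

/-- Layer cake: a lower bound for sets gives one for nonnegative functions. -/
theorem le_sum_norm1_of_sets [DecidableEq G] (K : Finset G) {ε : ℝ}
    (h : ∀ D : Finset G, D.Nonempty →
      ε * D.card ≤ ∑ g ∈ K, (((D.image fun x => g * x) ∆ D).card : ℝ))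
    (μ : G →₀ ℝ) (hμ : 0 ≤ μ) :
    ε * norm1 μ ≤ ∑ g ∈ K, norm1 (μ.mapDomain (fun x => g * x) - μ) := by
  induction hn : μ.support.card using Nat.strong_induction_on generalizing μ with
  | _ n ih =>
    rcases μ.support.eq_empty_or_nonempty with h0 | hne
    · obtain rfl : μ = 0 := Finsupp.support_eq_empty.mp h0
      rw [Norm1.zero, mul_zero]
      exact Finset.sum_nonneg fun _ _ => Norm1.nonneg _
    · obtain ⟨x₀, hx₀, hmin⟩ := μ.support.exists_min_image (fun x => μ x) hne
      set D := μ.support
      set c := μ x₀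
      have hc : 0 < c :=
        lt_of_le_of_ne (hμ x₀) (Ne.symm (Finsupp.mem_support_iff.mp hx₀))
      set ν := μ - c • ind D with hν
      have hνx : ∀ x, ν x = if x ∈ D then μ x - c else 0 := fun x => by
        rw [hν, Finsupp.sub_apply, Finsupp.smul_apply, ind_apply]
        split_ifs with hx
        · simp
        · rw [Finsupp.notMem_support_iff.mp hx]; simp
      have hν0 : 0 ≤ ν := fun x => by
        rw [hνx, Finsupp.coe_zero, Pi.zero_apply]
        split_ifs with hx
        exacts [sub_nonneg.mpr (hmin x hx), le_rfl]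
      have hsub : ν.support ⊂ D := by
        refine Finset.ssubset_iff_subset_ne.mpr ⟨fun x hx => ?_, fun he => ?_⟩
        · rw [Finsupp.mem_support_iff, hνx] at hx
          by_contra hxD
          exact hx (if_neg hxD)
        · have : x₀ ∈ ν.support := he ▸ hx₀
          rw [Finsupp.mem_support_iff, hνx, if_pos hx₀, sub_self] at this
          exact this rfl
      have ihν := ih _ (hn ▸ Finset.card_lt_card hsub) ν hν0 rfl
      have hnorm : norm1 μ = c * D.card + norm1 ν := by
        rw [Norm1.eq_sum μ (V := D) subset_rfl, Norm1.eq_sum ν (V := D) hsub.subset,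
          show c * (D.card : ℝ) = ∑ _x ∈ D, c by rw [Finset.sum_const, nsmul_eq_mul, mul_comm],
          ← Finset.sum_add_distrib]
        refine Finset.sum_congr rfl fun x hx => ?_
        rw [hνx, if_pos hx, abs_of_nonneg (hμ x), abs_of_nonneg (sub_nonneg.mpr (hmin x hx))]
        ring
      have hdiff : ∀ g, norm1 (μ.mapDomain (fun x => g * x) - μ) =
          c * (((D.image fun x => g * x) ∆ D).card : ℝ) +
            norm1 (ν.mapDomain (fun x => g * x) - ν) := by
        intro g
        set V := D.image (fun x => g * x) ∪ D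
        have hsupp : ∀ f : G →₀ ℝ, f.support ⊆ D →
            (f.mapDomain (fun x => g * x) - f).support ⊆ V := fun f hf => by
          refine (Finsupp.support_sub).trans (Finset.union_subset ?_ ?_)
          · exact (Finsupp.mapDomain_support).trans
              ((Finset.image_subset_image hf).trans Finset.subset_union_left)
          · exact hf.trans Finset.subset_union_right
        rw [← norm1_translate_ind, Norm1.eq_sum _ (hsupp μ subset_rfl),
          Norm1.eq_sum _ (hsupp ν hsub.subset),
          Norm1.eq_sum ((ind D).mapDomain _ - ind D) (hsupp (ind D) fun x hx => ?_),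
          Finset.mul_sum, ← Finset.sum_add_distrib]
        · refine Finset.sum_congr rfl fun x _ => ?_
          simp only [Finsupp.sub_apply, mapDomain_mul_left_apply, ind_apply, hνx]
          by_cases h1 : g⁻¹ * x ∈ D <;> by_cases h2 : x ∈ D
          · simp [h1, h2]
          · rw [if_pos h1, if_neg h2, if_pos h1, if_neg h2, Finsupp.notMem_support_iff.mp h2]
            simp [abs_of_nonneg (hμ (g⁻¹ * x)), abs_of_nonneg (sub_nonneg.mpr (hmin _ h1))]
          · rw [if_neg h1, if_pos h2, if_neg h1, if_pos h2, Finsupp.notMem_support_iff.mp h1]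
            rw [zero_sub, zero_sub, zero_sub, abs_neg, abs_neg, abs_neg, abs_one,
              abs_of_nonneg (hμ x), abs_of_nonneg (sub_nonneg.mpr (hmin _ h2))]
            ring
          · simp [h1, h2, Finsupp.notMem_support_iff.mp h1, Finsupp.notMem_support_iff.mp h2]
        · rw [Finsupp.mem_support_iff, ind_apply] at hx
          by_contra hxD
          exact hx (if_neg hxD)
      rw [hnorm]
      simp only [hdiff, Finset.sum_add_distrib, ← Finset.mul_sum, mul_add]
      have := mul_le_mul_of_nonneg_left (h D hne) hc.le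
      linarith

/-- Almost invariant functions give Følner sets. -/
theorem Reiter.isAmenable (h : Reiter G) : IsAmenable G := by
  classical
  intro K ε hε
  by_contra hno
  push Not at hno
  obtain ⟨μ, hμ, hμ1, hK⟩ := h K (ε / (K.card + 1)) (by positivity)
  have hlow := le_sum_norm1_of_sets K (ε := ε) (fun D hD => by
    obtain ⟨g, hg, hgD⟩ := hno D hD
    refine le_trans hgD (le_trans (le_of_eq ?_) (Finset.single_le_sum
      (f := fun g => (((D.image fun x => g * x) ∆ D).card : ℝ)) (fun _ _ => Nat.cast_nonneg _) hg))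
    congr) μ hμ
  rw [hμ1, mul_one] at hlow
  have hup := Finset.sum_le_sum fun g hg => (hK g hg).le
  rw [Finset.sum_const, nsmul_eq_mul] at hup
  have hlt : (K.card : ℝ) * (ε / (K.card + 1)) < ε := by
    rw [← mul_div_assoc, div_lt_iff₀ (by positivity)]
    nlinarith
  linarith

theorem isAmenable_iff_reiter : IsAmenable G ↔ Reiter G :=
  ⟨IsAmenable.reiter, Reiter.isAmenable⟩

/-! ### Permanence -/

/-- The main criterion: almost invariant finitely supported probability functions on a set with
amenable stabilisers. -/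
theorem reiter_of_action {Ω : Type*} [MulAction G Ω]
    (hν : ∀ (K : Finset G) (ε : ℝ), 0 < ε → ∃ ν : Ω →₀ ℝ, 0 ≤ ν ∧ norm1 ν = 1 ∧
      ∀ g ∈ K, norm1 (ν.mapDomain (fun ω => g • ω) - ν) < ε)
    (hstab : ∀ ω : Ω, Reiter (MulAction.stabilizer G ω)) : Reiter G := by
  classical
  intro K ε hε
  obtain ⟨ν, hν0, hν1, hνK⟩ := hν K (ε / 2) (half_pos hε)
  let r : Ω → Ω := fun ω => (⟦ω⟧ : Quotient (MulAction.orbitRel G Ω)).out
  have hr : ∀ ω, ∃ s : G, s • r ω = ω := fun ω => by
    have h : r ω ∈ MulAction.orbit G ω := MulAction.orbitRel_apply.mp (Quotient.mk_out ω)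
    obtain ⟨s, hs⟩ := h
    exact ⟨s⁻¹, by rw [← hs]; exact inv_smul_smul s ω⟩
  have hrg : ∀ (g : G) ω, r (g • ω) = r ω := fun g ω => by
    refine congrArg Quotient.out (Quotient.sound ?_)
    exact MulAction.orbitRel_apply.mpr ⟨g, rfl⟩
  choose s hs using hr
  have hh : ∀ (g : G) ω, (s (g • ω))⁻¹ * g * s ω ∈ MulAction.stabilizer G (r ω) := fun g ω => by
    rw [MulAction.mem_stabilizer_iff, mul_smul, mul_smul, hs, inv_smul_eq_iff]
    conv_rhs => rw [← hrg g ω]
    exact (hs _).symm
  let H : ∀ ρ : Ω, Finset (MulAction.stabilizer G ρ) := fun ρ =>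
    (((K ×ˢ ν.support).image fun p => (s (p.1 • p.2))⁻¹ * p.1 * s p.2).subtype
      (fun x => x ∈ MulAction.stabilizer G ρ))
  choose μ hμ0 hμ1 hμH using fun ρ : Ω => hstab ρ (H ρ) (ε / 2) (half_pos hε)
  let base : Ω → G →₀ ℝ := fun ω =>
    (μ (r ω)).mapDomain fun x : MulAction.stabilizer G (r ω) => s ω * (x : G)
  have hbase0 : ∀ ω, 0 ≤ base ω := fun ω => Norm1.mapDomain_nonneg _ (hμ0 _)
  have hbase1 : ∀ ω, norm1 (base ω) = 1 := fun ω =>
    (Norm1.mapDomain_of_nonneg _ (hμ0 _)).trans (hμ1 _)
  let Λ : (Ω →₀ ℝ) →ₗ[ℝ] (G →₀ ℝ) := Finsupp.linearCombination ℝ base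
  have hΛ : ∀ f, Λ f = ∑ ω ∈ f.support, f ω • base ω := fun f => Finsupp.linearCombination_apply ℝ f
  have hΛle : ∀ f, norm1 (Λ f) ≤ norm1 f := fun f => by
    rw [hΛ]
    refine (Norm1.sum_le _ _).trans (le_of_eq (Finset.sum_congr rfl fun ω _ => ?_))
    rw [Norm1.smul, hbase1, mul_one]
  have hpos : 0 ≤ Λ ν := fun x => by
    rw [hΛ, Finsupp.finsetSum_apply, Finsupp.coe_zero, Pi.zero_apply]
    exact Finset.sum_nonneg fun ω _ => mul_nonneg (hν0 ω) (hbase0 ω x)
  refine ⟨Λ ν, hpos, ?_, fun g hg => ?_⟩
  · have hsum : (Λ ν).sum (fun _ x => x) = ∑ ω ∈ ν.support, ν ω := by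
      rw [hΛ, ← Finsupp.sum_finsetSum_index (fun _ => rfl) (fun _ _ _ => rfl)]
      refine Finset.sum_congr rfl fun ω _ => ?_
      rw [Finsupp.sum_smul_index' (fun _ => rfl)]
      simp only [smul_eq_mul, Finsupp.sum, ← Finset.mul_sum]
      have := (Norm1.eq_mass _ (hbase0 ω)).symm.trans (hbase1 ω)
      simp only [Finsupp.sum] at this
      rw [this, mul_one]
    rw [Norm1.eq_mass _ hpos, hsum, ← hν1, Norm1.eq_mass _ hν0]
    rfl
  · have hstep : norm1 ((Λ ν).mapDomain (fun x => g * x) - Λ (ν.mapDomain fun ω => g • ω)) ≤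
        ε / 2 := by
      rw [hΛ, Finsupp.mapDomain_finsetSum,
        show ν.mapDomain (fun ω => g • ω) = ∑ ω ∈ ν.support, Finsupp.single (g • ω) (ν ω) from rfl,
        map_sum, ← Finset.sum_sub_distrib]
      refine (Norm1.sum_le _ _).trans (le_trans (Finset.sum_le_sum fun ω hω => ?_)
        (le_of_eq ((Finset.sum_mul ν.support (fun ω => ν ω) (ε / 2)).symm.trans ?_)))
      · rw [Finsupp.mapDomain_smul, show Λ (Finsupp.single (g • ω) (ν ω)) = ν ω • base (g • ω) from
          Finsupp.linearCombination_single ℝ _ _, ← smul_sub, Norm1.smul, abs_of_nonneg (hν0 ω)]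
        refine mul_le_mul_of_nonneg_left ?_ (hν0 ω)
        set h : MulAction.stabilizer G (r ω) := ⟨_, hh g ω⟩
        have hmem : h ∈ H (r ω) := Finset.mem_subtype.mpr
          (Finset.mem_image.mpr ⟨(g, ω), Finset.mem_product.mpr ⟨hg, hω⟩, rfl⟩)
        have e1 : (base ω).mapDomain (fun x => g * x) =
            ((μ (r ω)).mapDomain fun x => h * x).mapDomain
              fun x : MulAction.stabilizer G (r ω) => s (g • ω) * (x : G) := by
          show ((μ (r ω)).mapDomain
            fun x : MulAction.stabilizer G (r ω) => s ω * (x : G)).mapDomain _ = _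
          rw [← Finsupp.mapDomain_comp, ← Finsupp.mapDomain_comp]
          refine Finsupp.mapDomain_congr fun x _ => ?_
          simp [h, mul_assoc]
        have e2 : base (g • ω) =
            (μ (r ω)).mapDomain fun x : MulAction.stabilizer G (r ω) => s (g • ω) * (x : G) := by
          show (μ (r (g • ω))).mapDomain
            (fun x : MulAction.stabilizer G (r (g • ω)) => s (g • ω) * (x : G)) = _
          rw [hrg]
        rw [e1, e2]
        have hdiff : ∀ {A : Type _} (φ : A → G) (a b : A →₀ ℝ),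
            norm1 (a.mapDomain φ - b.mapDomain φ) ≤ norm1 (a - b) := fun φ a b => by
          rw [← Finsupp.mapDomain_sub]
          exact Norm1.mapDomain_le φ _
        exact (hdiff _ _ _).trans (hμH (r ω) h hmem).le
      · have := (Norm1.eq_mass _ hν0).symm.trans hν1
        simp only [Finsupp.sum] at this
        rw [this, one_mul]
    have hstep2 : norm1 (Λ (ν.mapDomain fun ω => g • ω) - Λ ν) < ε / 2 := by
      rw [← map_sub]
      exact (hΛle _).trans_lt (hνK g hg)
    have := Norm1.add_le ((Λ ν).mapDomain (fun x => g * x) - Λ (ν.mapDomain fun ω => g • ω))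
      (Λ (ν.mapDomain fun ω => g • ω) - Λ ν)
    rw [sub_add_sub_cancel] at this
    linarith

/-- Amenable stabilisers and an almost invariant probability give amenability. -/
theorem isAmenable_of_action {Ω : Type*} [MulAction G Ω]
    (hν : ∀ (K : Finset G) (ε : ℝ), 0 < ε → ∃ ν : Ω →₀ ℝ, 0 ≤ ν ∧ norm1 ν = 1 ∧
      ∀ g ∈ K, norm1 (ν.mapDomain (fun ω => g • ω) - ν) < ε)
    (hstab : ∀ ω : Ω, IsAmenable (MulAction.stabilizer G ω)) : IsAmenable G :=
  (reiter_of_action hν fun ω => (hstab ω).reiter).isAmenable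

variable {Q : Type*} [Group Q]

/-- Quotients of amenable groups. -/
theorem IsAmenable.of_surjective (hG : IsAmenable G) (f : G →* Q) (hf : Function.Surjective f) :
    IsAmenable Q := by
  classical
  refine Reiter.isAmenable fun K ε hε => ?_
  obtain ⟨μ, h0, h1, hK⟩ := hG.reiter (K.image (Function.surjInv hf)) ε hε
  refine ⟨μ.mapDomain f, Norm1.mapDomain_nonneg _ h0, (Norm1.mapDomain_of_nonneg _ h0).trans h1,
    fun q hq => ?_⟩
  have e : (μ.mapDomain f).mapDomain (fun x => q * x) =
      (μ.mapDomain fun x => Function.surjInv hf q * x).mapDomain f := by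
    rw [← Finsupp.mapDomain_comp, ← Finsupp.mapDomain_comp]
    refine Finsupp.mapDomain_congr fun x _ => ?_
    simp [Function.surjInv_eq hf q]
  rw [e, ← Finsupp.mapDomain_sub]
  exact (Norm1.mapDomain_le _ _).trans_lt (hK _ (Finset.mem_image_of_mem _ hq))

theorem IsAmenable.of_mulEquiv (hG : IsAmenable G) (e : G ≃* Q) : IsAmenable Q :=
  hG.of_surjective e.toMonoidHom e.surjective

/-- Subgroups of amenable groups. -/
theorem IsAmenable.subgroup (hG : IsAmenable G) (H : Subgroup G) : IsAmenable H := by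
  classical
  refine Reiter.isAmenable fun K ε hε => ?_
  obtain ⟨μ, h0, h1, hK⟩ := hG.reiter (K.image Subtype.val) ε hε
  let t : G → G := fun g => (Quotient.mk (QuotientGroup.rightRel H) g).out
  have ht : ∀ g, g * (t g)⁻¹ ∈ H := fun g =>
    QuotientGroup.rightRel_apply.mp (Quotient.mk_out g)
  have htH : ∀ (h : H) g, t ((h : G) * g) = t g := fun h g =>
    congrArg Quotient.out (Quotient.sound (QuotientGroup.rightRel_apply.mpr (by simp)))
  let φ : G → H := fun g => ⟨g * (t g)⁻¹, ht g⟩
  refine ⟨μ.mapDomain φ, Norm1.mapDomain_nonneg _ h0, (Norm1.mapDomain_of_nonneg _ h0).trans h1,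
    fun h hh => ?_⟩
  have e : (μ.mapDomain φ).mapDomain (fun x => h * x) =
      (μ.mapDomain fun x => (h : G) * x).mapDomain φ := by
    rw [← Finsupp.mapDomain_comp, ← Finsupp.mapDomain_comp]
    refine Finsupp.mapDomain_congr fun x _ => Subtype.ext ?_
    simp [φ, htH h x, mul_assoc]
  rw [e, ← Finsupp.mapDomain_sub]
  exact (Norm1.mapDomain_le _ _).trans_lt (hK _ (Finset.mem_image_of_mem _ hh))

theorem IsAmenable.of_injective (hQ : IsAmenable Q) (f : G →* Q) (hf : Function.Injective f) :
    IsAmenable G :=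
  (hQ.subgroup f.range).of_mulEquiv (MonoidHom.ofInjective hf).symm

/-- Extensions. -/
theorem IsAmenable.of_ker (f : G →* Q) (hQ : IsAmenable Q) (hker : IsAmenable f.ker) :
    IsAmenable G := by
  classical
  letI : MulAction G Q := MulAction.compHom Q f
  refine isAmenable_of_action (Ω := Q) (fun K ε hε => ?_) fun ω => ?_
  · obtain ⟨μ, h0, h1, hK⟩ := hQ.reiter (K.image f) ε hε
    exact ⟨μ, h0, h1, fun g hg => hK (f g) (Finset.mem_image_of_mem _ hg)⟩
  · have e : MulAction.stabilizer G ω = f.ker := by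
      ext g
      rw [MulAction.mem_stabilizer_iff, MonoidHom.mem_ker]
      exact mul_eq_right
    rw [e]
    exact hker

/-- Groups which are locally inside amenable subgroups. -/
theorem isAmenable_of_local
    (h : ∀ K : Finset G, ∃ H : Subgroup G, (K : Set G) ⊆ H ∧ IsAmenable H) : IsAmenable G := by
  classical
  refine Reiter.isAmenable fun K ε hε => ?_
  obtain ⟨H, hKH, hH⟩ := h K
  obtain ⟨μ, h0, h1, hK⟩ := hH.reiter (K.subtype (· ∈ H)) ε hε
  refine ⟨μ.mapDomain Subtype.val, Norm1.mapDomain_nonneg _ h0,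
    (Norm1.mapDomain_of_nonneg _ h0).trans h1, fun g hg => ?_⟩
  have e : (μ.mapDomain Subtype.val).mapDomain (fun x => g * x) =
      (μ.mapDomain fun x => (⟨g, hKH hg⟩ : H) * x).mapDomain Subtype.val := by
    rw [← Finsupp.mapDomain_comp, ← Finsupp.mapDomain_comp]
    rfl
  rw [e, ← Finsupp.mapDomain_sub]
  exact (Norm1.mapDomain_le _ _).trans_lt (hK _ (Finset.mem_subtype.mpr hg))

/-- Finite groups. -/
theorem isAmenable_of_finite [Finite G] : IsAmenable G := by
  classical
  have := Fintype.ofFinite G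
  intro K ε hε
  refine ⟨Finset.univ, Finset.univ_nonempty, fun g _ => ?_⟩
  have e : (Finset.univ : Finset G).image (fun x => g * x) = Finset.univ :=
    Finset.image_univ_of_surjective (mul_left_surjective g)
  have hc : (0 : ℝ) < ε * (Finset.univ : Finset G).card :=
    mul_pos hε (by exact_mod_cast Finset.univ_nonempty.card_pos)
  convert hc using 1
  norm_cast
  rw [Finset.card_eq_zero]
  ext x
  simp only [Finset.mem_symmDiff, Finset.mem_image, Finset.mem_univ, true_and, Finset.notMem_empty,
    iff_false, not_or, not_and, not_not, imp_self, and_true, true_imp_iff, not_true_eq_false,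
    IsEmpty.forall_iff, implies_true]
  exact ⟨fun _ h => h, mul_left_surjective g x⟩

/-- The integers. -/
theorem isAmenable_int : IsAmenable (Multiplicative ℤ) := by
  let : DecidableEq (Multiplicative ℤ) := Classical.decEq _
  intro K ε hε
  obtain ⟨B, hB⟩ : ∃ B : ℕ, ∀ g ∈ K, (Multiplicative.toAdd g).natAbs ≤ B :=
    ⟨K.sup fun g => (Multiplicative.toAdd g).natAbs, fun g hg =>
      Finset.le_sup (f := fun g => (Multiplicative.toAdd g).natAbs) hg⟩
  obtain ⟨n, hn⟩ := exists_nat_gt (2 * (B : ℝ) / ε)
  let D : Finset (Multiplicative ℤ) := (Finset.Ico (0 : ℤ) (n + 1)).image Multiplicative.ofAdd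
  have hcard : D.card = n + 1 := by
    rw [Finset.card_image_of_injective _ Multiplicative.ofAdd.injective, Int.card_Ico]
    omega
  refine ⟨D, Finset.card_pos.mp (by omega), fun g hg => ?_⟩
  set a := Multiplicative.toAdd g
  have hsub : (D.image fun x => g * x) ∆ D ⊆
      ((Finset.Ico (min 0 a) (max 0 a)) ∪
        Finset.Ico (min ((n : ℤ) + 1) (n + 1 + a)) (max ((n : ℤ) + 1) (n + 1 + a))).image
          Multiplicative.ofAdd := by
    intro x hx
    refine Finset.mem_image.mpr ⟨Multiplicative.toAdd x, ?_, ofAdd_toAdd x⟩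
    have hmem : ∀ y, y ∈ D ↔ 0 ≤ Multiplicative.toAdd y ∧ Multiplicative.toAdd y < n + 1 := by
      intro y
      simp only [D, Finset.mem_image, Finset.mem_Ico]
      exact ⟨by rintro ⟨z, hz, rfl⟩; simpa using hz, fun hy => ⟨_, hy, ofAdd_toAdd y⟩⟩
    have himg : x ∈ D.image (fun y => g * y) ↔
        0 ≤ Multiplicative.toAdd x - a ∧ Multiplicative.toAdd x - a < n + 1 := by
      rw [Finset.mem_image]
      constructor
      · rintro ⟨y, hy, rfl⟩
        simpa [a, toAdd_mul] using (hmem y).mp hy
      · intro hy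
        refine ⟨g⁻¹ * x, (hmem _).mpr ?_, by simp⟩
        simpa [a, toAdd_mul, toAdd_inv, neg_add_eq_sub] using hy
    rw [Finset.mem_symmDiff, himg, hmem] at hx
    simp only [Finset.mem_union, Finset.mem_Ico]
    omega
  have h2 : ((D.image fun x => g * x) ∆ D).card ≤ 2 * B := by
    refine (Finset.card_le_card hsub).trans (Finset.card_image_le.trans
      ((Finset.card_union_le _ _).trans ?_))
    rw [Int.card_Ico, Int.card_Ico]
    have := hB g hg
    omega
  rw [hcard]
  have h3 : 2 * (B : ℝ) < ε * ((n + 1 : ℕ) : ℝ) := by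
    rw [div_lt_iff₀ hε] at hn
    push_cast
    nlinarith
  refine lt_of_le_of_lt ?_ h3
  exact_mod_cast h2

/-- Products. -/
theorem IsAmenable.prod (hG : IsAmenable G) (hQ : IsAmenable Q) : IsAmenable (G × Q) := by
  refine IsAmenable.of_ker (MonoidHom.snd G Q) hQ
    ((hG.of_surjective (MonoidHom.codRestrict (MonoidHom.inl G Q) (MonoidHom.snd G Q).ker
      fun x => rfl) ?_))
  rintro ⟨⟨x, y⟩, hy⟩
  exact ⟨x, Subtype.ext (Prod.ext rfl (MonoidHom.mem_ker.mp hy).symm)⟩

/-- Commutative groups. -/
theorem isAmenable_of_comm {A : Type*} [CommGroup A] : IsAmenable A := by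
  classical
  refine isAmenable_of_local fun K => ⟨Subgroup.closure K, Subgroup.subset_closure, ?_⟩
  induction K using Finset.induction_on with
  | empty =>
    rw [Finset.coe_empty, Subgroup.closure_empty]
    exact isAmenable_of_finite
  | insert a K ha ih =>
    let f : Subgroup.closure (K : Set A) × Multiplicative ℤ →*
        Subgroup.closure ((insert a K : Finset A) : Set A) :=
      MonoidHom.coprod (Subgroup.inclusion (Subgroup.closure_mono (by simp)))
        (zpowersHom _ ⟨a, Subgroup.subset_closure (by simp)⟩)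
    refine (ih.prod isAmenable_int).of_surjective f ?_
    rintro ⟨x, hx⟩
    have hx' : x ∈ Subgroup.closure (K : Set A) ⊔ Subgroup.zpowers a := by
      rw [Subgroup.zpowers_eq_closure, ← Subgroup.closure_union, Set.union_singleton]
      simpa using hx
    obtain ⟨y, hy, z, hz, rfl⟩ := Subgroup.mem_sup.mp hx'
    obtain ⟨k, rfl⟩ := Subgroup.mem_zpowers_iff.mp hz
    exact ⟨(⟨y, hy⟩, Multiplicative.ofAdd k), Subtype.ext (by simp [f])⟩

end Vale.Agent.P196
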