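import Vale.Agent.P196.BitField
import Vale.Agent.P196.Reiter

/-!
The law of an independent random finite set as a finitely supported probability function, and its
almost invariance under affine moves `A ↦ e(A) ∆ B`.
-/

open Finset
open scoped symmDiff

namespace Vale.Agent.P196

variable {ι : Type*} [DecidableEq ι]

/-- The law of the random subset of `S`, as a finitely supported function. -/
noncomputable def fieldMeasure (S : Finset ι) (φ : ι → ℝ) : Finset ι →₀ ℝ :=
  ∑ A ∈ S.powerset, Finsupp.single A (fieldWeight S φ A)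

lemma fieldMeasure_apply (S : Finset ι) (φ : ι → ℝ) (A : Finset ι) :
    fieldMeasure S φ A = fieldWeight S φ A := by
  rw [fieldMeasure, Finsupp.finsetSum_apply]
  simp only [Finsupp.single_apply, sum_ite_eq', mem_powerset]
  split_ifs with h
  · rfl
  · exact (if_neg h).symm

lemma fieldMeasure_nonneg (S : Finset ι) {φ : ι → ℝ} (h0 : ∀ i, 0 ≤ φ i) (h1 : ∀ i, φ i ≤ 1) :
    0 ≤ fieldMeasure S φ := fun A => by
  rw [fieldMeasure_apply]
  exact fieldWeight_nonneg h0 h1 A

lemma norm1_fieldMeasure (S : Finset ι) {φ : ι → ℝ} (h0 : ∀ i, 0 ≤ φ i) (h1 : ∀ i, φ i ≤ 1) :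
    norm1 (fieldMeasure S φ) = 1 := by
  rw [Norm1.eq_sum _ (V := S.powerset) fun A hA => ?_]
  · rw [← sum_fieldWeight S φ]
    exact sum_congr rfl fun A _ => by
      rw [fieldMeasure_apply, abs_of_nonneg (fieldWeight_nonneg h0 h1 A)]
  · rw [Finsupp.mem_support_iff, fieldMeasure_apply] at hA
    by_contra h
    exact hA (if_neg (by simpa using h))

/-- Affine moves change the law little when the profile is one on `B` and has small energy. -/
theorem norm1_mapDomain_fieldMeasure_le (e : ι ≃ ι) (B S : Finset ι) {φ : ι → ℝ}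
    (h0 : ∀ i, 0 ≤ φ i) (h1 : ∀ i, φ i ≤ 1) (hS : ∀ i, i ∉ S → φ i = 0) (hB : ∀ i ∈ B, φ i = 1)
    {E : ℝ} (hE : ∀ T : Finset ι, ∑ i ∈ T, (φ (e.symm i) - φ i) ^ 2 ≤ E) :
    norm1 ((fieldMeasure S φ).mapDomain (fun A => A.map e.toEmbedding ∆ B) - fieldMeasure S φ)
      ≤ 2 * Real.sqrt E := by
  set ψ : ι → ℝ := φ ∘ e.symm
  set T := S ∪ S.map e.toEmbedding
  have hBS : B ⊆ S := fun i hi => by
    by_contra h
    have := hB i hi
    rw [hS i h] at this
    exact zero_ne_one this
  have hsymm : ∀ D : Finset ι, (D ∆ B) ∆ B = D := fun D => by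
    rw [symmDiff_assoc, symmDiff_self, symmDiff_bot]
  have hval : ∀ C, (fieldMeasure S φ).mapDomain (fun A => A.map e.toEmbedding ∆ B) C
      = fieldWeight T ψ (C ∆ B) := by
    intro C
    have hinj : Function.Injective fun A : Finset ι => A.map e.toEmbedding ∆ B := by
      intro A A' h
      have h2 := congrArg (fun D => D ∆ B) h
      simp only [hsymm] at h2
      exact map_injective e.toEmbedding h2
    have hC : C = ((C ∆ B).map e.symm.toEmbedding).map e.toEmbedding ∆ B := by
      rw [map_map]
      simp [hsymm]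
    conv_lhs => rw [hC]
    rw [Finsupp.mapDomain_apply hinj, fieldMeasure_apply, fieldWeight_mono (T := T) (φ := ψ)
      (subset_union_right : S.map e.toEmbedding ⊆ T)]
    · have h2 := fieldWeight_map e.toEmbedding S ψ ((C ∆ B).map e.symm.toEmbedding)
      rw [show (ψ ∘ e.toEmbedding) = φ by funext i; simp [ψ], map_map] at h2
      simpa using h2.symm
    · intro i _ hi
      refine hS _ fun h => hi ?_
      simpa using h
  have hval' : ∀ C, fieldMeasure S φ C = fieldWeight T φ (C ∆ B) := by
    intro C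
    rw [fieldMeasure_apply, fieldWeight_symmDiff (hBS.trans subset_union_left) hB,
      fieldWeight_mono subset_union_left fun i _ hi => hS i hi]
  have hT : ∀ D : Finset ι, D ⊆ T → D ∆ B ⊆ T := by
    intro D hD x hx
    rcases mem_symmDiff.1 hx with ⟨h, -⟩ | ⟨h, -⟩
    exacts [hD h, subset_union_left (hBS h)]
  rw [Norm1.eq_sum _ (V := T.powerset) fun C hC => ?_]
  · rw [sum_bij' (s := T.powerset) (t := T.powerset) (fun C _ => C ∆ B) (fun D _ => D ∆ B)
      (fun C hC => mem_powerset.2 (hT C (mem_powerset.1 hC)))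
      (fun D hD => mem_powerset.2 (hT D (mem_powerset.1 hD))) (fun C _ => hsymm C)
      (fun D _ => hsymm D) (g := fun D => |fieldWeight T ψ D - fieldWeight T φ D|)
      (fun C _ => by rw [Finsupp.sub_apply, hval, hval'])]
    refine (sum_abs_fieldWeight_sub_le T (fun i => h0 _) (fun i => h1 _) h0 h1).trans ?_
    exact mul_le_mul_of_nonneg_left (Real.sqrt_le_sqrt (hE T)) zero_le_two
  · rw [Finsupp.mem_support_iff, Finsupp.sub_apply, hval, hval'] at hC
    rw [mem_powerset]
    by_contra h
    refine hC ?_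
    have : ¬ C ∆ B ⊆ T := fun h' => h (by simpa [hsymm] using hT _ h')
    rw [fieldWeight, fieldWeight, if_neg this, if_neg this, sub_zero]

end Vale.Agent.P196
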