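import Mathlib

/-!
Finitely supported profiles on `ℤ` and `ℤ × ℤ`, equal to one on a prescribed box and with
small energy under translations (recurrence of the two lattices).
-/

open Finset

namespace Vale.Agent.P196

/-- Value in `[0,1]` of the clamp of a real number. -/
noncomputable def clamp01 (t : ℝ) : ℝ := max 0 (min 1 t)

lemma clamp01_mem (t : ℝ) : 0 ≤ clamp01 t ∧ clamp01 t ≤ 1 :=
  ⟨le_max_left _ _, max_le zero_le_one (min_le_left _ _)⟩

lemma abs_clamp01_sub (s t : ℝ) : |clamp01 s - clamp01 t| ≤ |s - t| := by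
  refine (abs_max_sub_max_le_max _ _ _ _).trans (max_le (by simp) ?_)
  exact (abs_min_sub_min_le_max _ _ _ _).trans (max_le (by simp) le_rfl)

lemma abs_log_sub_le {a b : ℝ} (ha : 0 < a) (hb : 0 < b) :
    |Real.log a - Real.log b| ≤ |a - b| / min a b := by
  rcases le_total b a with h | h
  · rw [abs_of_nonneg (sub_nonneg.2 (Real.log_le_log hb h)), abs_of_nonneg (sub_nonneg.2 h),
      min_eq_right h, ← Real.log_div ha.ne' hb.ne', sub_div, div_self hb.ne']
    exact Real.log_le_sub_one_of_pos (div_pos ha hb)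
  · rw [abs_of_nonpos (sub_nonpos.2 (Real.log_le_log ha h)), abs_of_nonpos (sub_nonpos.2 h),
      min_eq_left h, neg_sub, neg_sub, ← Real.log_div hb.ne' ha.ne', sub_div, div_self ha.ne']
    exact Real.log_le_sub_one_of_pos (div_pos hb ha)

/-- Sup norm of a lattice point. -/
def latNorm (x : ℤ × ℤ) : ℕ := max x.1.natAbs x.2.natAbs

/-- The logarithmic cutoff profile: one up to radius `K`, zero from radius `M`. -/
noncomputable def logProfile (K M r : ℕ) : ℝ :=
  clamp01 ((Real.log ((M : ℝ) + 1) - Real.log ((r : ℝ) + 1))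
    / (Real.log ((M : ℝ) + 1) - Real.log ((K : ℝ) + 1)))

lemma logProfile_zero {K M r : ℕ} (hKM : K < M) (hr : M ≤ r) : logProfile K M r = 0 := by
  have hL : Real.log ((K : ℝ) + 1) < Real.log ((M : ℝ) + 1) :=
    Real.log_lt_log (by positivity) (by exact_mod_cast Nat.succ_lt_succ hKM)
  have : Real.log ((M : ℝ) + 1) ≤ Real.log ((r : ℝ) + 1) :=
    Real.log_le_log (by positivity) (by exact_mod_cast Nat.succ_le_succ hr)
  unfold logProfile clamp01
  refine max_eq_left ((min_le_right _ _).trans ?_)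
  exact div_nonpos_of_nonpos_of_nonneg (by linarith) (by linarith)

lemma logProfile_one {K M r : ℕ} (hKM : K < M) (hr : r ≤ K) : logProfile K M r = 1 := by
  have hL : Real.log ((K : ℝ) + 1) < Real.log ((M : ℝ) + 1) :=
    Real.log_lt_log (by positivity) (by exact_mod_cast Nat.succ_lt_succ hKM)
  have : Real.log ((r : ℝ) + 1) ≤ Real.log ((K : ℝ) + 1) :=
    Real.log_le_log (by positivity) (by exact_mod_cast Nat.succ_le_succ hr)
  unfold logProfile clamp01
  rw [min_eq_left ((one_le_div (by linarith)).2 (by linarith))]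
  simp

lemma logProfile_sub_sq {K M r r' : ℕ} (hKM : K < M) (h1 : r' ≤ r + 1) (h2 : r ≤ r' + 1) :
    (logProfile K M r - logProfile K M r') ^ 2
      ≤ 4 / ((r : ℝ) + 1) ^ 2 / (Real.log ((M : ℝ) + 1) - Real.log ((K : ℝ) + 1)) ^ 2 := by
  set L := Real.log ((M : ℝ) + 1) - Real.log ((K : ℝ) + 1)
  have hL : 0 < L := sub_pos.2
    (Real.log_lt_log (by positivity) (by exact_mod_cast Nat.succ_lt_succ hKM))
  have hd : |logProfile K M r - logProfile K M r'|
      ≤ 2 / ((r : ℝ) + 1) / L := by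
    refine (abs_clamp01_sub _ _).trans ?_
    rw [← sub_div, abs_div, abs_of_pos hL, sub_sub_sub_cancel_left]
    refine div_le_div_of_nonneg_right ?_ hL.le
    refine (abs_log_sub_le (by positivity) (by positivity)).trans ?_
    have hr1 : ((r' : ℝ)) ≤ r + 1 := by exact_mod_cast h1
    have hr2 : ((r : ℝ)) ≤ r' + 1 := by exact_mod_cast h2
    have hab : |(r' : ℝ) + 1 - ((r : ℝ) + 1)| ≤ 1 := abs_le.2 ⟨by linarith, by linarith⟩
    have hmin : ((r : ℝ) + 1) / 2 ≤ min ((r' : ℝ) + 1) ((r : ℝ) + 1) :=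
      le_min (by linarith [(Nat.cast_nonneg r' : (0 : ℝ) ≤ r')]) (by linarith [(Nat.cast_nonneg r : (0 : ℝ) ≤ r)])
    calc |(r' : ℝ) + 1 - ((r : ℝ) + 1)| / min ((r' : ℝ) + 1) ((r : ℝ) + 1)
        ≤ 1 / (((r : ℝ) + 1) / 2) := div_le_div₀ zero_le_one hab (by positivity) hmin
      _ = 2 / ((r : ℝ) + 1) := by field_simp
  calc (logProfile K M r - logProfile K M r') ^ 2 = |logProfile K M r - logProfile K M r'| ^ 2 :=
        (sq_abs _).symm
    _ ≤ (2 / ((r : ℝ) + 1) / L) ^ 2 := pow_le_pow_left₀ (abs_nonneg _) hd 2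
    _ = _ := by rw [div_pow, div_pow]; norm_num

/-- At most `8 r + 1` lattice points have norm `r`. -/
lemma card_latNorm_eq_le (S : Finset (ℤ × ℤ)) (r : ℕ) :
    (S.filter fun x => latNorm x = r).card ≤ 8 * r + 8 := by
  classical
  refine (card_le_card (t := (({(r : ℤ), -(r : ℤ)} : Finset ℤ) ×ˢ Icc (-(r : ℤ)) r)
    ∪ (Icc (-(r : ℤ)) r ×ˢ ({(r : ℤ), -(r : ℤ)} : Finset ℤ))) ?_).trans ?_
  · intro x hx
    obtain ⟨-, hx⟩ := Finset.mem_filter.1 hx
    simp only [latNorm] at hx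
    simp only [mem_union, mem_product, mem_insert, mem_singleton, mem_Icc]
    omega
  · refine (card_union_le _ _).trans ?_
    simp only [card_product, Int.card_Icc]
    have : (({(r : ℤ), -(r : ℤ)} : Finset ℤ)).card ≤ 2 := card_le_two
    have h2 : (((r : ℤ) + 1 - -(r : ℤ)).toNat) = 2 * r + 1 := by omega
    rw [h2]
    nlinarith

lemma unit_energy {K M : ℕ} (hKM : K < M) {e : ℤ × ℤ} (he : latNorm e ≤ 1) (S : Finset (ℤ × ℤ)) :
    ∑ x ∈ S, (logProfile K M (latNorm (x + e)) - logProfile K M (latNorm x)) ^ 2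
      ≤ 32 * (1 + Real.log ((M : ℝ) + 1))
        / (Real.log ((M : ℝ) + 1) - Real.log ((K : ℝ) + 1)) ^ 2 := by
  classical
  set L := Real.log ((M : ℝ) + 1) - Real.log ((K : ℝ) + 1)
  set T := S.filter fun x => latNorm x ≤ M
  have hnorm : ∀ x : ℤ × ℤ, latNorm (x + e) ≤ latNorm x + 1 ∧ latNorm x ≤ latNorm (x + e) + 1 := by
    intro x
    simp only [latNorm, Prod.fst_add, Prod.snd_add] at *
    omega
  have hz : ∀ x ∈ S, x ∉ T →
      (logProfile K M (latNorm (x + e)) - logProfile K M (latNorm x)) ^ 2 = 0 := by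
    intro x hxS hx
    have hx' : M < latNorm x := by
      by_contra h
      exact hx (mem_filter.2 ⟨hxS, not_lt.1 h⟩)
    rw [logProfile_zero hKM hx'.le, logProfile_zero hKM (by linarith [(hnorm x).2])]
    simp
  rw [← sum_subset (filter_subset _ S) hz]
  calc ∑ x ∈ T, (logProfile K M (latNorm (x + e)) - logProfile K M (latNorm x)) ^ 2
      ≤ ∑ x ∈ T, 4 / ((latNorm x : ℝ) + 1) ^ 2 / L ^ 2 := by
        refine sum_le_sum fun x _ => ?_
        rw [← neg_sub, neg_sq]
        exact logProfile_sub_sq hKM (hnorm x).1 (hnorm x).2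
    _ = ∑ r ∈ range (M + 1), (T.filter fun x => latNorm x = r).card
          * (4 / ((r : ℝ) + 1) ^ 2 / L ^ 2) := by
        rw [← sum_fiberwise_of_maps_to (g := latNorm) (t := range (M + 1))
          (fun x hx => mem_range.2 (Nat.lt_succ_of_le (mem_filter.1 hx).2))]
        refine sum_congr rfl fun r _ => ?_
        rw [sum_congr rfl (g := fun _ => 4 / ((r : ℝ) + 1) ^ 2 / L ^ 2)
          (fun x hx => by simp only [(mem_filter.1 hx).2]), sum_const, nsmul_eq_mul]
    _ ≤ ∑ r ∈ range (M + 1), 32 * (((r : ℝ) + 1)⁻¹) / L ^ 2 := by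
        refine sum_le_sum fun r _ => ?_
        calc ((T.filter fun x => latNorm x = r).card : ℝ) * (4 / ((r : ℝ) + 1) ^ 2 / L ^ 2)
            ≤ (8 * (r : ℝ) + 8) * (4 / ((r : ℝ) + 1) ^ 2 / L ^ 2) := by
              refine mul_le_mul_of_nonneg_right ?_ (by positivity)
              exact_mod_cast card_latNorm_eq_le T r
          _ = 32 * (((r : ℝ) + 1)⁻¹) / L ^ 2 := by field_simp; ring
    _ ≤ 32 * (1 + Real.log ((M : ℝ) + 1)) / L ^ 2 := by
        rw [← sum_div, ← mul_sum]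
        refine div_le_div_of_nonneg_right (mul_le_mul_of_nonneg_left ?_ (by norm_num)) (sq_nonneg L)
        have h := harmonic_le_one_add_log (M + 1)
        simp only [harmonic] at h
        push_cast at h
        exact h

lemma tendsto_energy_bound (K : ℕ) :
    Filter.Tendsto (fun M : ℕ => 32 * (1 + Real.log ((M : ℝ) + 1))
        / (Real.log ((M : ℝ) + 1) - Real.log ((K : ℝ) + 1)) ^ 2) Filter.atTop (nhds 0) := by
  set c := Real.log ((K : ℝ) + 1)
  have hM : Filter.Tendsto (fun M : ℕ => Real.log ((M : ℝ) + 1) - c) Filter.atTop Filter.atTop :=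
    Filter.tendsto_atTop_add_const_right _ (-c)
      (Real.tendsto_log_atTop.comp (Filter.tendsto_atTop_add_const_right _ 1
        tendsto_natCast_atTop_atTop))
  have h1 : Filter.Tendsto (fun y : ℝ => 32 * (1 + c) * (y⁻¹ * y⁻¹) + 32 * y⁻¹) Filter.atTop
      (nhds 0) := by
    simpa using ((tendsto_inv_atTop_zero.mul tendsto_inv_atTop_zero).const_mul (32 * (1 + c))).add
      ((tendsto_inv_atTop_zero (𝕜 := ℝ)).const_mul 32)
  refine (h1.comp hM).congr' ?_
  filter_upwards [hM.eventually_gt_atTop 0] with M hM0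
  simp only [Function.comp_apply]
  field_simp
  ring

/-- Iterating a translation bound: `n` steps cost at most `n ^ 2` times one step. -/
lemma energy_iterate {α : Type*} (f : α → ℝ) (τ : α ≃ α) {B : ℝ}
    (h : ∀ S : Finset α, ∑ x ∈ S, (f (τ x) - f x) ^ 2 ≤ B) (n : ℕ) (S : Finset α) :
    ∑ x ∈ S, (f (τ^[n] x) - f x) ^ 2 ≤ (n : ℝ) ^ 2 * B := by
  classical
  have hstep : ∀ j : ℕ, ∑ x ∈ S, (f (τ^[j + 1] x) - f (τ^[j] x)) ^ 2 ≤ B := by
    intro j
    refine le_trans (le_of_eq ?_) (h (S.image (τ^[j])))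
    rw [sum_image fun a _ b _ hab => (τ.injective.iterate j) hab]
    refine sum_congr rfl fun x _ => ?_
    rw [Function.iterate_succ_apply']
  have hx : ∀ x, (f (τ^[n] x) - f x) ^ 2
      ≤ n * ∑ j ∈ range n, (f (τ^[j + 1] x) - f (τ^[j] x)) ^ 2 := by
    intro x
    have h2 := sum_range_sub (fun j => f (τ^[j] x)) n
    simp only [Function.iterate_zero_apply] at h2
    rw [← h2]
    have h3 := sq_sum_le_card_mul_sum_sq (s := range n)
      (f := fun j => f (τ^[j + 1] x) - f (τ^[j] x))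
    rw [card_range] at h3
    exact h3
  calc ∑ x ∈ S, (f (τ^[n] x) - f x) ^ 2
      ≤ ∑ x ∈ S, (n : ℝ) * ∑ j ∈ range n, (f (τ^[j + 1] x) - f (τ^[j] x)) ^ 2 :=
        sum_le_sum fun x _ => hx x
    _ = (n : ℝ) * ∑ j ∈ range n, ∑ x ∈ S, (f (τ^[j + 1] x) - f (τ^[j] x)) ^ 2 := by
        rw [← mul_sum, sum_comm]
    _ ≤ (n : ℝ) * ∑ _j ∈ range n, B :=
        mul_le_mul_of_nonneg_left (sum_le_sum fun j _ => hstep j) (Nat.cast_nonneg n)
    _ = (n : ℝ) ^ 2 * B := by rw [sum_const, card_range, nsmul_eq_mul]; ring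

lemma sq_sub_le_two (a b c : ℝ) : (a - c) ^ 2 ≤ 2 * (a - b) ^ 2 + 2 * (b - c) ^ 2 := by
  nlinarith [sq_nonneg (a - 2 * b + c)]

/-- A finitely supported profile on `ℤ × ℤ`, one on the box of radius `K`, with energy at most `ε`
under every translation of norm at most `R`. -/
theorem exists_profile_int_prod (K R : ℕ) {ε : ℝ} (hε : 0 < ε) :
    ∃ (M : ℕ) (φ : ℤ × ℤ → ℝ), K < M ∧ (∀ x, 0 ≤ φ x) ∧ (∀ x, φ x ≤ 1) ∧
      (∀ x, latNorm x ≤ K → φ x = 1) ∧ (∀ x, M ≤ latNorm x → φ x = 0) ∧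
      ∀ v, latNorm v ≤ R → ∀ S : Finset (ℤ × ℤ), ∑ x ∈ S, (φ (x + v) - φ x) ^ 2 ≤ ε := by
  classical
  have hpos : 0 < ε / (4 * (R : ℝ) ^ 2 + 4) := by positivity
  obtain ⟨M, hMb, hKM⟩ := (((tendsto_energy_bound K).eventually (eventually_lt_nhds hpos)).and
    (Filter.eventually_gt_atTop K)).exists
  refine ⟨M, fun x => logProfile K M (latNorm x), hKM, fun x => (clamp01_mem _).1,
    fun x => (clamp01_mem _).2, fun x hx => logProfile_one hKM hx,
    fun x hx => logProfile_zero hKM hx, fun v hv S => ?_⟩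
  set f := fun x : ℤ × ℤ => logProfile K M (latNorm x) with hf
  set B := ε / (4 * (R : ℝ) ^ 2 + 4)
  have hit : ∀ (e : ℤ × ℤ), latNorm e ≤ 1 → ∀ (k : ℕ) (T : Finset (ℤ × ℤ)),
      ∑ x ∈ T, (f (x + k • e) - f x) ^ 2 ≤ (k : ℝ) ^ 2 * B := by
    intro e he k T
    refine le_trans (le_of_eq ?_) (energy_iterate f (Equiv.addRight e)
      (fun U => (unit_energy hKM he U).trans hMb.le) k T)
    refine sum_congr rfl fun x _ => ?_
    rw [Equiv.coe_addRight, add_right_iterate]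
  obtain ⟨a, b⟩ := v
  simp only [latNorm] at hv
  have hdec : ∀ x : ℤ × ℤ, x + (a, b)
      = x + a.natAbs • ((Int.sign a, 0) : ℤ × ℤ) + b.natAbs • ((0, Int.sign b) : ℤ × ℤ) := by
    intro x
    ext <;> simp <;> rw [mul_comm, Int.sign_mul_abs]
  have h1 := hit (Int.sign a, 0) (by simp only [latNorm]; rcases Int.sign_trichotomy a with h | h | h <;> simp [h])
    a.natAbs S
  have h2 := hit (0, Int.sign b) (by simp only [latNorm]; rcases Int.sign_trichotomy b with h | h | h <;> simp [h])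
    b.natAbs (S.image fun x => x + a.natAbs • ((Int.sign a, 0) : ℤ × ℤ))
  rw [sum_image fun x _ y _ h => add_right_cancel h] at h2
  have hR : ∀ k : ℕ, k ≤ R → (k : ℝ) ^ 2 ≤ (R : ℝ) ^ 2 := fun k hk =>
    pow_le_pow_left₀ (Nat.cast_nonneg k) (Nat.cast_le.2 hk) 2
  have ha := mul_le_mul_of_nonneg_right (hR _ (le_trans (le_max_left _ _) hv)) hpos.le
  have hb := mul_le_mul_of_nonneg_right (hR _ (le_trans (le_max_right _ _) hv)) hpos.le
  calc ∑ x ∈ S, (f (x + (a, b)) - f x) ^ 2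
      ≤ ∑ x ∈ S, (2 * (f (x + a.natAbs • ((Int.sign a, 0) : ℤ × ℤ) + b.natAbs • ((0, Int.sign b) : ℤ × ℤ))
            - f (x + a.natAbs • ((Int.sign a, 0) : ℤ × ℤ))) ^ 2
          + 2 * (f (x + a.natAbs • ((Int.sign a, 0) : ℤ × ℤ)) - f x) ^ 2) :=
        sum_le_sum fun x _ => by rw [hdec]; exact sq_sub_le_two _ _ _
    _ ≤ (4 * (R : ℝ) ^ 2 + 4) * B := by
        rw [sum_add_distrib, ← mul_sum, ← mul_sum]
        have : 0 ≤ B := hpos.le
        nlinarith
    _ = ε := by simp only [B]; field_simp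

/-- A finitely supported profile on `ℤ`, one on `[-K, K]`, with energy at most `ε` under every
translation of size at most `R`. -/
theorem exists_profile_int (K R : ℕ) {ε : ℝ} (hε : 0 < ε) :
    ∃ (M : ℕ) (φ : ℤ → ℝ), K < M ∧ (∀ x, 0 ≤ φ x) ∧ (∀ x, φ x ≤ 1) ∧
      (∀ x, x.natAbs ≤ K → φ x = 1) ∧ (∀ x, M ≤ x.natAbs → φ x = 0) ∧
      ∀ v : ℤ, v.natAbs ≤ R → ∀ S : Finset ℤ, ∑ x ∈ S, (φ (x + v) - φ x) ^ 2 ≤ ε := by
  obtain ⟨M, φ, hKM, h0, h1, hone, hzero, hen⟩ := exists_profile_int_prod K R hε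
  refine ⟨M, fun x => φ (x, 0), hKM, fun x => h0 _, fun x => h1 _,
    fun x hx => hone _ (by simpa [latNorm] using hx),
    fun x hx => hzero _ (by simpa [latNorm] using hx), fun v hv S => ?_⟩
  have h := hen (v, 0) (by simpa [latNorm] using hv) (S.image fun x => (x, (0 : ℤ)))
  rw [sum_image fun x _ y _ (hxy : (x, (0 : ℤ)) = (y, 0)) => congrArg Prod.fst hxy] at h
  simpa using h

end Vale.Agent.P196
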