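import Mathlib

/-!
# P196: simplicity of groups of permutations with enough small commutators
-/

open scoped commutatorElement

namespace Vale.Agent.P196

variable {X : Type*}

/-- A permutation moving only points of `U`. -/
def SupportedIn (a : Equiv.Perm X) (U : Set X) : Prop := ∀ x, x ∉ U → a x = x

namespace SupportedIn

variable {a b : Equiv.Perm X} {U V : Set X}

theorem apply_mem (h : SupportedIn a U) {x : X} (hx : x ∈ U) : a x ∈ U := by
  by_contra hax
  exact hax (by rw [a.injective (h _ hax)]; exact hx)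

theorem inv (h : SupportedIn a U) : SupportedIn a⁻¹ U := fun x hx =>
  a.injective (((a.apply_symm_apply x).trans (h x hx).symm))

theorem conj (h : SupportedIn a U) (g : Equiv.Perm X) : SupportedIn (g * a * g⁻¹) (g '' U) :=
  fun x hx => by
    have hg : g⁻¹ x ∉ U := fun h' => hx ⟨_, h', g.apply_symm_apply x⟩
    show g (a (g⁻¹ x)) = x
    rw [h _ hg]
    exact g.apply_symm_apply x

theorem commute (ha : SupportedIn a U) (hb : SupportedIn b V) (hUV : Disjoint U V) :
    a * b = b * a := by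
  refine Equiv.ext fun x => ?_
  show a (b x) = b (a x)
  by_cases hxV : x ∈ V
  · rw [ha x (Set.disjoint_right.mp hUV hxV), ha _ (Set.disjoint_right.mp hUV (hb.apply_mem hxV))]
  · rw [hb x hxV]
    by_cases hxU : x ∈ U
    · rw [hb _ (Set.disjoint_left.mp hUV (ha.apply_mem hxU))]
    · rw [ha x hxU, hb x hxV]

end SupportedIn

/-- A group of permutations is simple when every nontrivial element moves some set of a family off
itself and each set of the family carries commutators generating the group normally. -/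
theorem isSimpleGroup_of_local (G : Subgroup (Equiv.Perm X)) [Nontrivial G] (Us : Set (Set X))
    (hsep : ∀ g : G, g ≠ 1 → ∃ U ∈ Us, Disjoint ((g : Equiv.Perm X) '' U) U)
    (hgen : ∀ U ∈ Us, Subgroup.normalClosure {c : G | ∃ a b : G,
      SupportedIn (a : Equiv.Perm X) U ∧ SupportedIn (b : Equiv.Perm X) U ∧ c = ⁅a, b⁆} = ⊤) :
    IsSimpleGroup G where
  eq_bot_or_eq_top_of_normal N hN := by
    refine or_iff_not_imp_left.mpr fun hne => ?_
    obtain ⟨g, hgN, hg1⟩ := (N.ne_bot_iff_exists_ne_one.mp hne |>.elim fun g hg =>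
      ⟨g.1, g.2, fun h => hg (Subtype.ext h)⟩ : ∃ g : G, g ∈ N ∧ g ≠ 1)
    obtain ⟨U, hU, hdisj⟩ := hsep g hg1
    refine top_le_iff.mp (le_of_eq_of_le (hgen U hU).symm (Subgroup.normalClosure_le_normal ?_))
    rintro _ ⟨a, b, ha, hb, rfl⟩
    -- the commutator of `g` and `a⁻¹`, and then with `b`
    have hc : g * a⁻¹ * g⁻¹ * a ∈ N := by
      have h := N.mul_mem hgN (hN.conj_mem g⁻¹ (N.inv_mem hgN) a⁻¹)
      simpa [mul_assoc] using h
    have hcb : g * a⁻¹ * g⁻¹ * a * b * (g * a⁻¹ * g⁻¹ * a)⁻¹ * b⁻¹ ∈ N := by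
      have h := N.mul_mem hc (hN.conj_mem _ (N.inv_mem hc) b)
      simpa [mul_assoc] using h
    have hAb : Commute (g * a⁻¹ * g⁻¹) (a * b * a⁻¹) := by
      refine Subtype.ext (SupportedIn.commute (V := U) ((ha.inv).conj g.1) ?_ hdisj)
      intro x hx
      show a.1 (b.1 (a.1⁻¹ x)) = x
      rw [ha.inv x hx, hb x hx, ha x hx]
    have e : g * a⁻¹ * g⁻¹ * a * b * (g * a⁻¹ * g⁻¹ * a)⁻¹ * b⁻¹ = ⁅a, b⁆ := by
      rw [commutatorElement_def]
      have h2 := hAb.eq
      calc g * a⁻¹ * g⁻¹ * a * b * (g * a⁻¹ * g⁻¹ * a)⁻¹ * b⁻¹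
          = (g * a⁻¹ * g⁻¹) * (a * b * a⁻¹) * (g * a⁻¹ * g⁻¹)⁻¹ * b⁻¹ := by group
        _ = a * b * a⁻¹ * b⁻¹ := by rw [h2]; group
    rwa [e] at hcb

end Vale.Agent.P196
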